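import Mathlib

/-!
Jacobi systems along a closed geodesic of a Blaschke manifold whose model is a projective space:
every point has a first conjugate point of multiplicity `l` at distance `π / 2` and a conjugate
point of full multiplicity at distance `π`.
-/

namespace Vale.Agent.P231

/-- Real square matrices of size `n`. -/
abbrev Mat (n : ℕ) := Matrix (Fin n) (Fin n) ℝ

/-- A Jacobi system `A'' + R A = 0` in dimension `l + k` with the conjugate-point pattern of a
closed geodesic of length `π` in a Blaschke manifold with projective model.
`A x` is the solution with `A x x = 0` and derivative `1` at `x`; `A' x` is its derivative.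
`R` is continuous, symmetric and periodic up to the holonomy `Q`. -/
structure JacobiSystem (l k : ℕ) where
  /-- The curvature operator in a parallel frame. -/
  R : ℝ → Mat (l + k)
  /-- The holonomy along the closed geodesic. -/
  Q : Mat (l + k)
  /-- The Jacobi solutions, indexed by their base point. -/
  A : ℝ → ℝ → Mat (l + k)
  /-- The derivatives of the Jacobi solutions. -/
  A' : ℝ → ℝ → Mat (l + k)
  R_cont : Continuous R
  R_symm : ∀ y, (R y).transpose = R y
  Q_orth : Q.transpose * Q = 1
  R_twist : ∀ y, R (y + Real.pi) = Q * R y * Q.transpose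
  init : ∀ x, A x x = 0 ∧ A' x x = 1
  deriv_A : ∀ x y i j, HasDerivAt (fun z => A x z i j) (A' x y i j) y
  deriv_A' : ∀ x y i j, HasDerivAt (fun z => A' x z i j) ((-(R y * A x y)) i j) y
  no_conj : ∀ x t, 0 < t → t < Real.pi / 2 → (A x (x + t)).det ≠ 0
  rank_half : ∀ x, (A x (x + Real.pi / 2)).rank = k
  vanish_pi : ∀ x, A x (x + Real.pi) = 0

/-- The mean over one period of the volume density `|det A x (x + t)|`. -/
noncomputable def meanJacobian {l k : ℕ} (S : JacobiSystem l k) (t : ℝ) : ℝ :=
  (∫ x in (0 : ℝ)..Real.pi, |(S.A x (x + t)).det|) / Real.pi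

/-- The volume density of the symmetric model, `(sin t cos t) ^ l sin t ^ k`. -/
noncomputable def modelJacobian (l k : ℕ) (t : ℝ) : ℝ :=
  (Real.sin t * Real.cos t) ^ l * Real.sin t ^ k

/-- The curvature operator is constant, equal to `4` on a subspace of dimension `l` and to `1` on
its orthogonal complement. -/
def IsModelCurvature {l k : ℕ} (S : JacobiSystem l k) : Prop :=
  ∃ P : Mat (l + k), P * P = P ∧ P.transpose = P ∧ P.trace = (l : ℝ) ∧
    ∀ y, S.R y = (4 : ℝ) • P + (1 - P)

end Vale.Agent.P231
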