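import Vale.Agent.P231.Quant

/-!
Interface between the modules: pointwise facts on a Jacobi system, and the scalar certificate.
-/

namespace Vale.Agent.P231

open Matrix Real

/-- Pointwise facts that follow from the Jacobi equation. -/
structure JacobiFacts {l k : ℕ} (S : JacobiSystem l k) : Prop where
  cont_A : Continuous fun p : ℝ × ℝ => S.A p.1 p.2
  cont_A' : Continuous fun p : ℝ × ℝ => S.A' p.1 p.2
  periodic_A : ∀ a y, S.A (a + π) (y + π) = S.Q * S.A a y * S.Qᵀ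
  periodic_A' : ∀ a y, S.A' (a + π) (y + π) = S.Q * S.A' a y * S.Qᵀ
  swap : ∀ a b, S.A b a = -(S.A a b)ᵀ
  wronskian : ∀ a b y, (S.A a y)ᵀ * S.A' b y - (S.A' a y)ᵀ * S.A b y = -S.A b a
  agree : ∀ a b (P : Mat (l + k)), S.A a b * P = 0 →
    ∀ y, S.A a y * P = S.A b y * (S.A' a b * P)
  det_ne : ∀ x t, t ≠ 0 → |t| < π → |t| ≠ π / 2 → (S.A x (x + t)).det ≠ 0
  ricc_symm : ∀ b y, (S.A b y).det ≠ 0 → (ricc S b y)ᵀ = ricc S b y
  deriv_logAbsDet : ∀ b y, (S.A b y).det ≠ 0 →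
    HasDerivAt (fun z => logAbsDet (S.A b z)) (ricc S b y).trace y
  deriv_ricc : ∀ b y, (S.A b y).det ≠ 0 →
    HasDerivAt (fun c => (ricc S c y).trace) (invGram (S.A b y)) b
  straddle_psd : ∀ x t, 0 < t → t < π / 2 →
    (ricc S (x - t) x - ricc S (x - t + π / 2) x).PosSemidef
  side_fwd : ∀ x t, 0 < t → t < π / 2 →
    ((S.A (x - π / 2) x)ᵀ * ricc S (x - t) x * S.A (x - π / 2) x
      - (S.A (x - π / 2) x)ᵀ * S.A' (x - π / 2) x).PosSemidef
  side_bwd : ∀ x t, 0 < t → t < π / 2 →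
    ((S.A (x - π / 2) x)ᵀ * S.A' (x - π / 2) x
      - (S.A (x - π / 2) x)ᵀ * ricc S (x - t + π / 2) x * S.A (x - π / 2) x).PosSemidef
  near_zero : ∀ ε > (0 : ℝ), ∃ δ > (0 : ℝ), ∀ x t, t ≠ 0 → |t| < δ →
    ∀ i j, |S.A x (x + t) i j / t - (1 : Mat (l + k)) i j| ≤ ε

/-- Facts about the kernel projection at half period. -/
structure KernelFacts {l k : ℕ} (S : JacobiSystem l k) : Prop where
  spec : ∀ x, IsKerProj l (S.A x (x + π / 2)) (kerProj S x)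
  cont : Continuous (kerProj S)
  periodic : ∀ x, kerProj S (x + π) = S.Q * kerProj S x * S.Qᵀ
  back : ∀ x, S.A x (x - π / 2) * kerProj S x = 0
  left : ∀ x, kerProj S x * S.A (x - π / 2) x = 0
  isometry : ∀ x, (S.A' x (x + π / 2) * kerProj S x)ᵀ * (S.A' x (x + π / 2) * kerProj S x)
    = kerProj S x
  image : ∀ x, kerProj S (x + π / 2) * (S.A' x (x + π / 2) * kerProj S x)
    = S.A' x (x + π / 2) * kerProj S x
  shift : ∀ x y, logGram (kerProj S x) (S.A x y)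
    = logGram (kerProj S (x + π / 2)) (S.A (x + π / 2) y)

/-- The multiplier certificate: `Sig` solves a linear ODE on `(0, π / 4]` and satisfies two
elementary bounds. -/
structure Cert (l k : ℕ) where
  /-- The multiplier times `sin² cos²`. -/
  Sig : ℝ → ℝ
  /-- Its derivative. -/
  Sig' : ℝ → ℝ
  /-- A primitive. -/
  J : ℝ → ℝ
  /-- A constant. -/
  K : ℝ
  deriv_Sig : ∀ t ∈ Set.Ioo (0 : ℝ) (π / 2), HasDerivAt Sig (Sig' t) t
  deriv_Sig' : ∀ t ∈ Set.Ioo (0 : ℝ) (π / 2), HasDerivAt Sig'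
    (2 * Sig t / (sin t * cos t) ^ 2 - (modelJacobian l k t + modelJacobian l k (π / 2 - t))) t
  deriv_J : ∀ t ∈ Set.Ioo (0 : ℝ) (π / 2), HasDerivAt J
    ((cos t ^ 2 * modelJacobian l k t - sin t ^ 2 * modelJacobian l k (π / 2 - t))
      / (2 * sin t * cos t)) t
  cont_J : Continuous J
  Sig'_mid : Sig' (π / 4) = 0
  small : ∃ C, ∀ t ∈ Set.Ioc (0 : ℝ) (π / 4), |Sig t| ≤ C * t ^ 2 ∧ |Sig' t| ≤ C * t
  nonneg : ∀ t ∈ Set.Ioc (0 : ℝ) (π / 4), 0 ≤ Sig t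
  upper : ∀ t ∈ Set.Ioc (0 : ℝ) (π / 4),
    Sig t / (2 * (sin t * cos t) ^ 2) + Sig t + J t ≤ K
  margin : K * (π / 4) ≤ ∫ t in (0 : ℝ)..(π / 4), (Sig t / (sin t * cos t) ^ 2 + J t)

end Vale.Agent.P231
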