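import Vale.Agent.P231.Mean.Cont
import Vale.Agent.P231.Matrix.Basic

/-!
The means at small lags: `meanLog` grows like `(l + k) log t`, `meanGram` like `l log t` and
`t * meanRicc` stays bounded on `(0, π / 4]`.
-/

namespace Vale.Agent.P231

open Matrix Real Set Filter Topology

variable {l k : ℕ} {S : JacobiSystem l k}

/-- The renormalised solution `t⁻¹ • A x (x + t)`, extended by `1` at `t = 0`. -/
noncomputable def scaledA (S : JacobiSystem l k) (p : ℝ × ℝ) : Mat (l + k) :=
  if p.2 = 0 then 1 else p.2⁻¹ • S.A p.1 (p.1 + p.2)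

lemma A_eq_smul_scaledA (S : JacobiSystem l k) {x t : ℝ} (ht : t ≠ 0) :
    S.A x (x + t) = t • scaledA S (x, t) := by
  simp [scaledA, ht, smul_smul]

lemma det_scaledA_ne (F : JacobiFacts S) {p : ℝ × ℝ} (h : |p.2| < π / 2) :
    (scaledA S p).det ≠ 0 := by
  unfold scaledA
  split_ifs with h0
  · simp
  · rw [det_smul]
    exact mul_ne_zero (pow_ne_zero _ (inv_ne_zero h0))
      (F.det_ne _ _ h0 (by linarith [Real.pi_pos]) h.ne)

lemma continuousAt_scaledA (F : JacobiFacts S) (p : ℝ × ℝ) : ContinuousAt (scaledA S) p := by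
  obtain ⟨x, t⟩ := p
  rcases eq_or_ne t 0 with rfl | ht
  · refine tendsto_pi_nhds.2 fun i => tendsto_pi_nhds.2 fun j => ?_
    rw [Metric.tendsto_nhds_nhds]
    intro ε hε
    obtain ⟨δ, hδ, hd⟩ := F.near_zero (ε / 2) (half_pos hε)
    refine ⟨δ, hδ, fun {q} hq => ?_⟩
    have hq2 : |q.2| < δ := by
      have := lt_of_le_of_lt (le_max_right _ _) (Prod.dist_eq (α := ℝ) (β := ℝ) ▸ hq)
      simpa [Real.dist_eq] using this
    have e0 : scaledA S (x, 0) = 1 := if_pos rfl
    rw [e0, Real.dist_eq]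
    by_cases h0 : q.2 = 0
    · simp [scaledA, h0, hε]
    · have := hd q.1 q.2 h0 hq2 i j
      rw [scaledA, if_neg h0, Matrix.smul_apply, smul_eq_mul, ← div_eq_inv_mul]
      linarith
  · have hev : (fun q : ℝ × ℝ => q.2⁻¹ • S.A q.1 (q.1 + q.2)) =ᶠ[𝓝 (x, t)] scaledA S := by
      filter_upwards [(continuous_snd.continuousAt (x := (x, t))).eventually_ne ht] with q hq
      exact (if_neg hq).symm
    refine ContinuousAt.congr ?_ hev
    exact (continuous_snd.continuousAt.inv₀ ht).smul
      (F.cont_A.comp (continuous_fst.prodMk (continuous_fst.add continuous_snd))).continuousAt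

/-- The determinant of `c` on the range of a projection of trace `l`. -/
lemma det_proj_scale {P : Mat (l + k)} (hPP : P * P = P) (hPt : Pᵀ = P) (htr : P.trace = (l : ℝ))
    (c : ℝ) : (c • P + (1 - P)).det = c ^ l := by
  obtain ⟨V, hV, hP⟩ := Lin.exists_frame_proj (n := l + k) rfl hPP hPt htr
  rw [← hV.det_conj, Matrix.mul_add, Matrix.add_mul, Lin.sandwich_sub, hV.conj_one,
    Matrix.mul_smul, Matrix.smul_mul, hP, fromBlocks_smul, sub_eq_add_neg, fromBlocks_neg,
    ← fromBlocks_one, fromBlocks_add, fromBlocks_add]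
  simp

/-- Scaling of the Gram determinant. -/
lemma logGram_smul {P M : Mat (l + k)} (hPP : P * P = P) (hPt : Pᵀ = P)
    (htr : P.trace = (l : ℝ)) (hM : M.det ≠ 0) {t : ℝ} (ht : t ≠ 0) :
    logGram P (t • M) = l * log t + logGram P M := by
  have e : P * ((t • M)ᵀ * (t • M)) * P + (1 - P)
      = (P * (Mᵀ * M) * P + (1 - P)) * (t ^ 2 • P + (1 - P)) := by
    have h1 : (1 - P) * P = 0 := by rw [Matrix.sub_mul, Matrix.one_mul, hPP, sub_self]
    have h2 : P * (1 - P) = 0 := by rw [Matrix.mul_sub, Matrix.mul_one, hPP, sub_self]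
    have h3 : (1 - P) * (1 - P) = 1 - P := by
      rw [Matrix.mul_sub, Matrix.mul_one, h1, sub_zero]
    have h4 : P * (Mᵀ * M) * P * P = P * (Mᵀ * M) * P := by rw [Matrix.mul_assoc, hPP]
    have h5 : P * (Mᵀ * M) * P * (1 - P) = 0 := by rw [Matrix.mul_assoc, h2, Matrix.mul_zero]
    rw [Matrix.add_mul, Matrix.mul_add, Matrix.mul_add]
    simp only [Matrix.mul_smul, Matrix.smul_mul, transpose_smul, smul_smul, h1, h3, h4, h5,
      smul_zero, add_zero, zero_add, sq]
  unfold logGram
  rw [e, det_mul, det_proj_scale hPP hPt htr,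
    Real.log_mul (gram_posDef hM hPP hPt).det_pos.ne' (pow_ne_zero _ (pow_ne_zero _ ht)),
    Real.log_pow, Real.log_pow]
  push_cast
  ring

theorem exists_growth (F : JacobiFacts S) (K : KernelFacts S) :
    ∃ C : ℝ, ∀ t ∈ Ioc (0 : ℝ) (π / 4), |meanLog S t - (l + k) * log t| ≤ C ∧
      |meanGram S t - l * log t| ≤ C ∧ |t * meanRicc S t| ≤ C := by
  have hpi := Real.pi_pos
  set s : Set (ℝ × ℝ) := Icc (0 : ℝ) π ×ˢ Icc (0 : ℝ) (π / 4) with hs
  have hne : ∀ p ∈ s, (scaledA S p).det ≠ 0 := fun p hp => det_scaledA_ne F (by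
    rw [abs_of_nonneg hp.2.1]; linarith [hp.2.2])
  have c1 : ContinuousOn (fun p => logAbsDet (scaledA S p)) s := fun p hp =>
    (((continuous_id.matrix_det.continuousAt.comp (continuousAt_scaledA F p)).abs).log
      (abs_ne_zero.2 (hne p hp))).continuousWithinAt
  have c2 : ContinuousOn (fun p => logGram (kerProj S p.1) (scaledA S p)) s := fun p hp =>
    (continuousAt_logGram_comp (P := fun p : ℝ × ℝ => kerProj S p.1)
      (K.cont.comp continuous_fst).continuousAt (continuousAt_scaledA F p) (hne p hp)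
      (K.spec p.1).1 (K.spec p.1).2.1).continuousWithinAt
  have c3 : ContinuousOn
      (fun p : ℝ × ℝ => (S.A' p.1 (p.1 + p.2) * (scaledA S p)⁻¹).trace) s := fun p hp => by
    have hi : ContinuousAt (fun p => (scaledA S p)⁻¹) p := by
      apply ContinuousAt.comp (g := fun M : Mat (l + k) => M⁻¹) ?_ (continuousAt_scaledA F p)
      apply continuousAt_matrix_inv
      rw [Ring.inverse_eq_inv']
      exact continuousAt_inv₀ (hne p hp)
    exact ((continuous_id.matrix_trace).continuousAt.comp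
      ((continuous_fst.matrix_mul continuous_snd).continuousAt.comp
        ((F.cont_A'.comp (continuous_fst.prodMk
          (continuous_fst.add continuous_snd))).continuousAt.prodMk hi))).continuousWithinAt
  have hc : IsCompact s := isCompact_Icc.prod isCompact_Icc
  obtain ⟨C1, hC1⟩ := hc.exists_bound_of_continuousOn c1
  obtain ⟨C2, hC2⟩ := hc.exists_bound_of_continuousOn c2
  obtain ⟨C3, hC3⟩ := hc.exists_bound_of_continuousOn c3
  simp only [Real.norm_eq_abs] at hC1 hC2 hC3
  refine ⟨max C1 (max C2 C3), fun t ht => ?_⟩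
  have ht0 : t ≠ 0 := ht.1.ne'
  have gt : t ∈ Good := good_of_pos ht.1 (by linarith [ht.2])
  have mem : ∀ x ∈ Icc (0 : ℝ) π, (x, t) ∈ s := fun x hx => ⟨hx, ht.1.le, ht.2⟩
  refine ⟨?_, ?_, ?_⟩
  · rw [meanLog, ← mean_const ((l + k : ℝ) * log t),
      ← mean_sub (continuous_logAbsDet_line F gt) continuous_const]
    refine (abs_mean_le fun x hx => ?_).trans (le_max_left _ _)
    have hd := hne _ (mem x hx)
    have e : logAbsDet (S.A x (x + t)) = (l + k : ℝ) * log t + logAbsDet (scaledA S (x, t)) := by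
      rw [A_eq_smul_scaledA S ht0, logAbsDet, det_smul, Fintype.card_fin, abs_mul,
        log_mul (abs_ne_zero.2 (pow_ne_zero _ ht0)) (abs_ne_zero.2 hd), abs_pow, log_pow,
        log_abs, Nat.cast_add, ← logAbsDet]
    rw [e, add_sub_cancel_left]
    exact hC1 _ (mem x hx)
  · rw [meanGram, ← mean_const ((l : ℝ) * log t),
      ← mean_sub (continuous_logGram_line F K gt) continuous_const]
    refine (abs_mean_le fun x hx => ?_).trans ((le_max_left C2 C3).trans (le_max_right _ _))
    rw [A_eq_smul_scaledA S ht0, logGram_smul (K.spec x).1 (K.spec x).2.1 (K.spec x).2.2.2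
      (hne _ (mem x hx)) ht0, add_sub_cancel_left]
    have h := hC2 (x, t) (mem x hx)
    dsimp only at h
    exact h
  · rw [meanRicc, ← mean_const_mul]
    refine (abs_mean_le fun x hx => ?_).trans ((le_max_right C2 C3).trans (le_max_right _ _))
    have hu : IsUnit (scaledA S (x, t)).det := (hne _ (mem x hx)).isUnit
    have hi : (S.A x (x + t))⁻¹ = t⁻¹ • (scaledA S (x, t))⁻¹ := by
      rw [A_eq_smul_scaledA S ht0]
      apply Matrix.inv_eq_left_inv
      rw [Matrix.smul_mul, Matrix.mul_smul, nonsing_inv_mul _ hu, smul_smul, inv_mul_cancel₀ ht0,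
        one_smul]
    rw [ricc, hi, Matrix.mul_smul, trace_smul, smul_eq_mul, ← mul_assoc, mul_inv_cancel₀ ht0,
      one_mul]
    exact hC3 _ (mem x hx)

end Vale.Agent.P231
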