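import Vale.Agent.P231.Facts

/-!
The kernel projection at half period: existence, uniqueness, continuity, periodicity, the isometry
between consecutive kernels and invariance of the Gram determinant.
-/

namespace Vale.Agent.P231

open Matrix Real Filter Topology

variable {n : ℕ}

/-- A symmetric idempotent is bounded entrywise by one. -/
lemma proj_entry_le {P : Mat n} (h1 : P * P = P) (h2 : Pᵀ = P) (i j : Fin n) :
    P i j ∈ Set.Icc (-1 : ℝ) 1 := by
  have hs : ∀ a b, P a b = P b a := fun a b => congrFun (congrFun h2 b) a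
  have hd : ∀ a, ∑ b, P a b * P a b = P a a := fun a => by
    conv_rhs => rw [← h1]
    rw [Matrix.mul_apply]
    exact Finset.sum_congr rfl fun b _ => by rw [hs b a]
  have hle : ∀ a b, P a b * P a b ≤ P a a := fun a b => by
    rw [← hd a]
    exact Finset.single_le_sum (f := fun c => P a c * P a c) (fun c _ => mul_self_nonneg _)
      (Finset.mem_univ b)
  have h := hle i j
  have h' := hle i i
  have hii : P i i ≤ 1 := by nlinarith
  constructor <;> nlinarith

/-- The kernel projection of a matrix of rank `k`, with a left inverse on its complement. -/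
lemma exists_kerProj {l k : ℕ} (M : Mat (l + k)) (hr : M.rank = k) :
    ∃ P G : Mat (l + k), IsKerProj l M P ∧ G * (Mᵀ * M) = 1 - P := by
  classical
  have hB : (Mᵀ * M).IsHermitian := by
    simp [Matrix.IsHermitian, Matrix.conjTranspose_eq_transpose_of_trivial]
  set d := hB.eigenvalues with hd
  set U : Mat (l + k) := (hB.eigenvectorUnitary : Mat (l + k)) with hU
  have hU1 : Uᵀ * U = 1 := by
    have := Unitary.coe_star_mul_self hB.eigenvectorUnitary
    rwa [Matrix.star_eq_conjTranspose, Matrix.conjTranspose_eq_transpose_of_trivial] at this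
  have hU2 : U * Uᵀ = 1 := mul_eq_one_comm.1 hU1
  have hspec : Mᵀ * M = U * diagonal d * Uᵀ := by
    have := hB.spectral_theorem
    rw [Unitary.conjStarAlgAut_apply, Matrix.star_eq_conjTranspose,
      Matrix.conjTranspose_eq_transpose_of_trivial] at this
    exact this
  have hconj : ∀ a b : Fin (l + k) → ℝ,
      (U * diagonal a * Uᵀ) * (U * diagonal b * Uᵀ) = U * diagonal (fun i => a i * b i) * Uᵀ :=
    fun a b => by
      rw [← diagonal_mul_diagonal]
      calc U * diagonal a * Uᵀ * (U * diagonal b * Uᵀ)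
          = U * diagonal a * (Uᵀ * U) * diagonal b * Uᵀ := by simp only [Matrix.mul_assoc]
        _ = _ := by rw [hU1, Matrix.mul_one]; simp only [Matrix.mul_assoc]
  set e : Fin (l + k) → ℝ := fun i => if d i = 0 then 1 else 0 with he
  set g : Fin (l + k) → ℝ := fun i => if d i = 0 then 0 else (d i)⁻¹ with hg
  set P := U * diagonal e * Uᵀ with hP
  have hPP : P * P = P := by
    rw [hP, hconj]
    congr 3
    funext i
    simp only [he]
    split_ifs <;> simp
  have hPT : Pᵀ = P := by
    rw [hP, transpose_mul, transpose_mul, transpose_transpose, diagonal_transpose,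
      ← Matrix.mul_assoc]
  refine ⟨P, U * diagonal g * Uᵀ, ⟨hPP, hPT, ?_, ?_⟩, ?_⟩
  · have h0 : (M * P)ᴴ * (M * P) = 0 := by
      rw [Matrix.conjTranspose_eq_transpose_of_trivial, transpose_mul, hPT]
      calc P * Mᵀ * (M * P) = P * (Mᵀ * M) * P := by simp only [Matrix.mul_assoc]
        _ = 0 := by
            rw [hspec, hP, hconj, hconj]
            have : (fun i => e i * d i * e i) = fun _ => (0 : ℝ) := funext fun i => by
              simp only [he]; split_ifs with h <;> simp [h]
            rw [this, diagonal_zero, Matrix.mul_zero, Matrix.zero_mul]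
    exact Matrix.conjTranspose_mul_self_eq_zero.1 h0
  · rw [hP, Matrix.trace_mul_cycle, hU1, Matrix.one_mul, trace_diagonal]
    have hrk : Fintype.card {i // d i ≠ 0} = k := by
      rw [← hB.rank_eq_card_non_zero_eigs, rank_transpose_mul_self, hr]
    have hcompl := Fintype.card_subtype_compl fun i => d i = 0
    rw [hrk, Fintype.card_fin] at hcompl
    have hle := Fintype.card_subtype_le fun i => d i = 0
    rw [Fintype.card_fin] at hle
    have hz : Fintype.card {i // d i = 0} = l := by omega
    simp only [he, Finset.sum_boole]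
    rw [Fintype.card_subtype] at hz
    exact_mod_cast hz
  · rw [hspec, hconj]
    have e1 : (1 : Mat (l + k)) = U * diagonal (fun _ => (1 : ℝ)) * Uᵀ := by
      rw [diagonal_one, Matrix.mul_one, hU2]
    rw [e1, hP, ← Matrix.sub_mul, ← Matrix.mul_sub, diagonal_sub]
    congr 3
    funext i
    simp only [hg, he]
    split_ifs with h <;> simp [h]

/-- The kernel projection is unique, and it fixes everything in the kernel. -/
lemma kerProj_unique {l k : ℕ} {M P : Mat (l + k)} (hr : M.rank = k) (hP : IsKerProj l M P) :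
    (∀ C : Mat (l + k), M * C = 0 → P * C = C) ∧ ∀ P', IsKerProj l M P' → P' = P := by
  obtain ⟨P₀, G, h0, hG⟩ := exists_kerProj M hr
  have hfix : ∀ C : Mat (l + k), M * C = 0 → P₀ * C = C := fun C hC => by
    have : (1 - P₀) * C = 0 := by
      rw [← hG, Matrix.mul_assoc, Matrix.mul_assoc Mᵀ, hC, Matrix.mul_zero, Matrix.mul_zero]
    rw [Matrix.sub_mul, Matrix.one_mul, sub_eq_zero] at this
    exact this.symm
  have heq : ∀ P', IsKerProj l M P' → P' = P₀ := fun P' h' => by
    obtain ⟨a1, a2, a3, a4⟩ := h'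
    obtain ⟨b1, b2, b3, b4⟩ := h0
    have h1 : P₀ * P' = P' := hfix P' a3
    have h2 : P' * P₀ = P' := by
      have := congrArg Matrix.transpose h1
      rwa [transpose_mul, a2, b2] at this
    have hz : ((P₀ - P')ᴴ * (P₀ - P')).trace = 0 := by
      rw [Matrix.conjTranspose_eq_transpose_of_trivial, transpose_sub, a2, b2, Matrix.sub_mul,
        Matrix.mul_sub, Matrix.mul_sub, b1, a1, h1, h2]
      simp [a4, b4]
    exact (sub_eq_zero.1 (Matrix.trace_conjTranspose_mul_self_eq_zero_iff.1 hz)).symm
  have hPe := heq P hP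
  exact ⟨fun C hC => by rw [hPe]; exact hfix C hC, fun P' h' => (heq P' h').trans hPe.symm⟩

variable {l k : ℕ} (S : JacobiSystem l k)

lemma kerProj_spec (x : ℝ) : IsKerProj l (S.A x (x + π / 2)) (kerProj S x) :=
  Classical.epsilon_spec (p := IsKerProj l (S.A x (x + π / 2)))
    (by obtain ⟨P, -, hP, -⟩ := exists_kerProj _ (S.rank_half x); exact ⟨P, hP⟩)

lemma kerProj_fix (x : ℝ) {C : Mat (l + k)} (h : S.A x (x + π / 2) * C = 0) :
    kerProj S x * C = C :=
  (kerProj_unique (S.rank_half x) (kerProj_spec S x)).1 C h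

lemma kerProj_eq (x : ℝ) {P : Mat (l + k)} (h : IsKerProj l (S.A x (x + π / 2)) P) :
    P = kerProj S x :=
  (kerProj_unique (S.rank_half x) (kerProj_spec S x)).2 P h

/-- Continuity: the graph is closed and the values lie in a compact set. -/
lemma kerProj_continuous (F : JacobiFacts S) : Continuous (kerProj S) := by
  rw [continuous_iff_ultrafilter]
  intro x₀ g hg
  set K : Set (Mat (l + k)) := Set.pi Set.univ fun _ => Set.pi Set.univ fun _ => Set.Icc (-1 : ℝ) 1
  have hK : IsCompact K := isCompact_univ_pi fun _ => isCompact_univ_pi fun _ => isCompact_Icc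
  have hmem : ∀ x, kerProj S x ∈ K := fun x i _ j _ =>
    proj_entry_le (kerProj_spec S x).1 (kerProj_spec S x).2.1 i j
  obtain ⟨Q, -, hQ⟩ := hK.ultrafilter_le_nhds (g.map (kerProj S))
    (Filter.le_principal_iff.2 (Ultrafilter.mem_map.2 (Filter.Eventually.of_forall hmem)))
  have hQ' : Tendsto (kerProj S) (g : Filter ℝ) (𝓝 Q) := hQ
  have hM : Tendsto (fun x => S.A x (x + π / 2)) (g : Filter ℝ) (𝓝 (S.A x₀ (x₀ + π / 2))) :=
    ((F.cont_A.comp (continuous_id.prodMk (continuous_id.add continuous_const))).tendsto x₀).mono_left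
      hg
  have h1 : Q * Q = Q :=
    tendsto_nhds_unique ((hQ'.mul hQ').congr fun x => (kerProj_spec S x).1) hQ'
  have hT : Continuous (fun P : Mat (l + k) => Pᵀ) := continuous_id.matrix_transpose
  have h2 : Qᵀ = Q :=
    tendsto_nhds_unique (((hT.tendsto Q).comp hQ').congr fun x => (kerProj_spec S x).2.1) hQ'
  have h3 : S.A x₀ (x₀ + π / 2) * Q = 0 :=
    tendsto_nhds_unique ((hM.mul hQ').congr fun x => (kerProj_spec S x).2.2.1) tendsto_const_nhds
  have h4 : Q.trace = (l : ℝ) :=
    tendsto_nhds_unique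
      ((((continuous_id.matrix_trace).tendsto Q).comp hQ').congr fun x => (kerProj_spec S x).2.2.2)
      tendsto_const_nhds
  rwa [← kerProj_eq S x₀ ⟨h1, h2, h3, h4⟩]

variable {S} (F : JacobiFacts S)

/-- The map from one kernel to the next. -/
noncomputable def kerMap (S : JacobiSystem l k) (x : ℝ) : Mat (l + k) :=
  S.A' x (x + π / 2) * kerProj S x

include F in
lemma kerMap_agree (x y : ℝ) :
    S.A x y * kerProj S x = S.A (x + π / 2) y * kerMap S x :=
  F.agree x (x + π / 2) _ (kerProj_spec S x).2.2.1 y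

include F in
lemma kerMap_deriv (x : ℝ) :
    S.A' (x + π / 2) x * kerMap S x = kerProj S x := by
  have h : ∀ i j, (S.A' x x * kerProj S x) i j = (S.A' (x + π / 2) x * kerMap S x) i j := by
    intro i j
    have d1 : HasDerivAt (fun y => (S.A x y * kerProj S x) i j)
        ((S.A' x x * kerProj S x) i j) x := by
      simp only [Matrix.mul_apply]
      exact HasDerivAt.fun_sum fun a _ => (S.deriv_A x x i a).mul_const _
    have d2 : HasDerivAt (fun y => (S.A (x + π / 2) y * kerMap S x) i j)
        ((S.A' (x + π / 2) x * kerMap S x) i j) x := by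
      simp only [Matrix.mul_apply]
      exact HasDerivAt.fun_sum fun a _ => (S.deriv_A (x + π / 2) x i a).mul_const _
    have e : (fun y => (S.A x y * kerProj S x) i j) =
        fun y => (S.A (x + π / 2) y * kerMap S x) i j := funext fun y => by
      rw [kerMap_agree F x y]
    rw [e] at d1
    exact d1.unique d2
  have := Matrix.ext h
  rw [(S.init x).2, Matrix.one_mul] at this
  exact this.symm

include F in
lemma kerMap_image (x : ℝ) : kerProj S (x + π / 2) * kerMap S x = kerMap S x := by
  refine kerProj_fix S _ ?_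
  rw [show x + π / 2 + π / 2 = x + π by ring, ← kerMap_agree F x (x + π), S.vanish_pi,
    Matrix.zero_mul]

include F in
lemma kerProj_back (x : ℝ) : S.A x (x - π / 2) * kerProj S x = 0 := by
  have h : S.A (x + π / 2) (x - π / 2) = 0 := by
    rw [F.swap (x - π / 2) (x + π / 2), show x + π / 2 = x - π / 2 + π by ring, S.vanish_pi,
      transpose_zero, neg_zero]
  rw [kerMap_agree F x, h, Matrix.zero_mul]

include F in
lemma kerProj_left (x : ℝ) : kerProj S x * S.A (x - π / 2) x = 0 := by
  rw [F.swap x (x - π / 2), Matrix.mul_neg]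
  have := congrArg Matrix.transpose (kerProj_back F x)
  rw [transpose_mul, (kerProj_spec S x).2.1, transpose_zero] at this
  rw [this, neg_zero]

include F in
/-- The derivative of `A x (x + π / 2)` along `x`. -/
lemma hasDerivAt_half (x : ℝ) (i j : Fin (l + k)) :
    HasDerivAt (fun z => S.A z (z + π / 2) i j)
      (S.A' x (x + π / 2) i j - S.A' (x + π / 2) x j i) x := by
  set y := x + π / 2 with hy
  -- the first slot alone
  have h2 : HasDerivAt (fun z => S.A z y i j) (-S.A' y x j i) x := by
    have e : (fun z => S.A z y i j) = fun z => -S.A y z j i := funext fun z => by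
      rw [F.swap y z]; simp [Matrix.transpose_apply]
    rw [e]
    exact (S.deriv_A y x j i).neg
  rw [hasDerivAt_iff_tendsto_slope_zero] at h2 ⊢
  have hc : Continuous fun p : ℝ × ℝ => S.A' p.1 p.2 i j := F.cont_A'.matrix_elem i j
  have h1 : Tendsto (fun h => h⁻¹ * (S.A (x + h) (y + h) i j - S.A (x + h) y i j)) (𝓝[≠] 0)
      (𝓝 (S.A' x y i j)) := by
    rw [Metric.tendsto_nhdsWithin_nhds]
    intro ε hε
    obtain ⟨δ, hδ, hδc⟩ := Metric.continuousAt_iff.1 (hc.continuousAt (x := (x, y))) ε hε
    refine ⟨δ, hδ, fun {h} hh0 hh => ?_⟩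
    rw [Real.dist_eq, sub_zero] at hh
    have hh0' : h ≠ 0 := hh0
    have key : ∀ a b : ℝ, a < b → ∃ c ∈ Set.Ioo a b,
        S.A' (x + h) c i j = (S.A (x + h) b i j - S.A (x + h) a i j) / (b - a) := fun a b hab =>
      exists_hasDerivAt_eq_slope (fun z => S.A (x + h) z i j) (fun z => S.A' (x + h) z i j) hab
        (fun z _ => (S.deriv_A (x + h) z i j).continuousAt.continuousWithinAt)
        fun z _ => S.deriv_A (x + h) z i j
    obtain ⟨c, hc1, hc2⟩ : ∃ c, |c - y| ≤ |h| ∧
        S.A' (x + h) c i j = h⁻¹ * (S.A (x + h) (y + h) i j - S.A (x + h) y i j) := by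
      rcases lt_or_gt_of_ne hh0' with hneg | hpos
      · obtain ⟨c, ⟨hc1, hc2⟩, hc3⟩ := key (y + h) y (by linarith)
        refine ⟨c, by rw [abs_of_neg hneg, abs_le]; constructor <;> linarith, ?_⟩
        rw [hc3, show y - (y + h) = -h by ring]
        field_simp
        ring
      · obtain ⟨c, ⟨hc1, hc2⟩, hc3⟩ := key y (y + h) (by linarith)
        refine ⟨c, by rw [abs_of_pos hpos, abs_le]; constructor <;> linarith, ?_⟩
        rw [hc3, show y + h - y = h by ring, div_eq_inv_mul]
    rw [← hc2]
    refine hδc (x := (x + h, c)) ?_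
    rw [Prod.dist_eq, Real.dist_eq, Real.dist_eq, add_sub_cancel_left, max_lt_iff]
    exact ⟨hh, lt_of_le_of_lt hc1 hh⟩
  have := h1.add h2
  rw [← sub_eq_add_neg] at this
  refine this.congr fun h => ?_
  simp only [smul_eq_mul, show x + h + π / 2 = y + h by rw [hy]; ring, ← hy]
  ring

include F in
lemma kerMap_isometry (x : ℝ) : (kerMap S x)ᵀ * kerMap S x = kerProj S x := by
  set y := x + π / 2 with hy
  set C := kerMap S x with hC
  set P := kerProj S x with hP
  have hCM : Cᵀ * S.A x y = 0 := by
    have h0 : kerProj S y * S.A x y = 0 := by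
      have := kerProj_left F y
      rwa [show y - π / 2 = x by rw [hy]; ring] at this
    have h1 : Cᵀ * kerProj S y = Cᵀ := by
      have := congrArg Matrix.transpose (kerMap_image F x)
      rwa [transpose_mul, (kerProj_spec S y).2.1] at this
    rw [← h1, Matrix.mul_assoc, h0, Matrix.mul_zero]
  set D : Mat (l + k) := S.A' x y - (S.A' y x)ᵀ with hD
  -- difference quotients
  have hlimD : Tendsto (fun h => h⁻¹ • (S.A (x + h) (x + h + π / 2) - S.A x y)) (𝓝[≠] 0) (𝓝 D) := by
    refine tendsto_pi_nhds.2 fun i => tendsto_pi_nhds.2 fun j => ?_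
    have := hasDerivAt_iff_tendsto_slope_zero.1 (hasDerivAt_half F x i j)
    exact this
  have hlimP : Tendsto (fun h => kerProj S (x + h)) (𝓝[≠] 0) (𝓝 P) := by
    have hc : Continuous fun h => kerProj S (x + h) :=
      (kerProj_continuous S F).comp (continuous_const.add continuous_id)
    have h0 := (hc.tendsto 0).mono_left (nhdsWithin_le_nhds (s := {(0 : ℝ)}ᶜ))
    simpa using h0
  have hlim := ((tendsto_const_nhds (x := Cᵀ) (f := 𝓝[≠] (0 : ℝ))).mul hlimD).mul hlimP
  have hzero : ∀ h, Cᵀ * h⁻¹ • (S.A (x + h) (x + h + π / 2) - S.A x y) * kerProj S (x + h) = 0 := by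
    intro h
    rw [Matrix.mul_smul, Matrix.mul_sub, hCM, sub_zero, Matrix.smul_mul, Matrix.mul_assoc,
      (kerProj_spec S (x + h)).2.2.1, Matrix.mul_zero, smul_zero]
  have hmain : Cᵀ * D * P = 0 :=
    tendsto_nhds_unique hlim (tendsto_const_nhds.congr fun h => (hzero h).symm)
  have hA : Cᵀ * (S.A' y x)ᵀ = P := by
    rw [← transpose_mul, kerMap_deriv F x]
    exact (kerProj_spec S x).2.1
  rw [hD, Matrix.mul_sub, Matrix.sub_mul, hA, (kerProj_spec S x).1, sub_eq_zero, Matrix.mul_assoc]
    at hmain
  exact hmain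

include F in
lemma kerMap_coisometry (x : ℝ) :
    kerMap S x * (kerMap S x)ᵀ = kerProj S (x + π / 2) := by
  set C := kerMap S x with hC
  have hCP : C * kerProj S x = C := by
    rw [hC, kerMap, Matrix.mul_assoc, (kerProj_spec S x).1]
  refine kerProj_eq S _ ⟨?_, ?_, ?_, ?_⟩
  · rw [Matrix.mul_assoc, ← Matrix.mul_assoc Cᵀ, kerMap_isometry F x, ← Matrix.mul_assoc, hCP]
  · rw [transpose_mul, transpose_transpose]
  · rw [← Matrix.mul_assoc, show x + π / 2 + π / 2 = x + π by ring, hC,
      ← kerMap_agree F x (x + π), S.vanish_pi, Matrix.zero_mul, Matrix.zero_mul]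
  · rw [trace_mul_comm, kerMap_isometry F x]
    exact (kerProj_spec S x).2.2.2

include F in
lemma logGram_shift (x z : ℝ) :
    logGram (kerProj S x) (S.A x z) = logGram (kerProj S (x + π / 2)) (S.A (x + π / 2) z) := by
  set C := kerMap S x with hC
  set P := kerProj S x with hP
  set P' := kerProj S (x + π / 2) with hP'
  set Ga := (S.A x z)ᵀ * S.A x z with hGa
  set Gb := (S.A (x + π / 2) z)ᵀ * S.A (x + π / 2) z with hGb
  have hag : P * Ga * P = Cᵀ * Gb * C := by
    have h1 := kerMap_agree F x z
    calc P * Ga * P = (S.A x z * P)ᵀ * (S.A x z * P) := by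
          rw [transpose_mul, (kerProj_spec S x).2.1, hGa]; simp only [Matrix.mul_assoc, ← hP]
      _ = (S.A (x + π / 2) z * C)ᵀ * (S.A (x + π / 2) z * C) := by rw [h1]
      _ = Cᵀ * Gb * C := by rw [transpose_mul, hGb]; simp only [Matrix.mul_assoc]
  have hPP : P' * P' = P' := (kerProj_spec S _).1
  have e1 : P * Ga * P + (1 - P) = 1 + Cᵀ * ((Gb - 1) * C) := by
    rw [hag, Matrix.sub_mul, Matrix.mul_sub, Matrix.one_mul, kerMap_isometry F x,
      Matrix.mul_assoc]
    abel
  have e2 : P' * Gb * P' + (1 - P') = 1 + P' * ((Gb - 1) * P') := by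
    rw [Matrix.sub_mul, Matrix.mul_sub, Matrix.one_mul, hPP, Matrix.mul_assoc]
    abel
  unfold logGram
  rw [← hGa, ← hGb, e1, e2, det_one_add_mul_comm, det_one_add_mul_comm P', Matrix.mul_assoc,
    Matrix.mul_assoc, kerMap_coisometry F x, hPP]

/-- All kernel facts. -/
theorem kernelFacts {l k : ℕ} (S : JacobiSystem l k) (F : JacobiFacts S) : KernelFacts S where
  spec := kerProj_spec S
  cont := kerProj_continuous S F
  periodic x := by
    obtain ⟨h1, h2, h3, h4⟩ := kerProj_spec S x
    have hQ := S.Q_orth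
    refine (kerProj_eq S (x + π) ⟨?_, ?_, ?_, ?_⟩).symm
    · calc S.Q * kerProj S x * S.Qᵀ * (S.Q * kerProj S x * S.Qᵀ)
          = S.Q * kerProj S x * (S.Qᵀ * S.Q) * (kerProj S x * S.Qᵀ) := by
            simp only [Matrix.mul_assoc]
        _ = S.Q * (kerProj S x * kerProj S x) * S.Qᵀ := by
            rw [hQ, Matrix.mul_one]; simp only [Matrix.mul_assoc]
        _ = _ := by rw [h1]
    · simp [h2, Matrix.mul_assoc]
    · rw [show x + π + π / 2 = x + π / 2 + π by ring, F.periodic_A]
      calc S.Q * S.A x (x + π / 2) * S.Qᵀ * (S.Q * kerProj S x * S.Qᵀ)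
          = S.Q * S.A x (x + π / 2) * (S.Qᵀ * S.Q) * (kerProj S x * S.Qᵀ) := by
            simp only [Matrix.mul_assoc]
        _ = S.Q * (S.A x (x + π / 2) * kerProj S x) * S.Qᵀ := by
            rw [hQ, Matrix.mul_one]; simp only [Matrix.mul_assoc]
        _ = 0 := by rw [h3, Matrix.mul_zero, Matrix.zero_mul]
    · rw [Matrix.trace_mul_cycle, hQ, Matrix.one_mul, h4]
  back := kerProj_back F
  left := kerProj_left F
  isometry := kerMap_isometry F
  image := kerMap_image F
  shift := logGram_shift F

end Vale.Agent.P231
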