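import Vale.Agent.P231.Jacobi.Basic
import Vale.Agent.P231.Matrix.Basic

/-!
# P231: the model system

With `R = 4 P + (1 - P)` the solutions are `sin t cos t P + sin t (1 - P)`, so the model is a Jacobi
system and its mean Jacobian is the model one.
-/

open Matrix Real Set Filter Topology
open scoped Matrix.Norms.Operator

namespace Vale.Agent.P231

variable {l k : ℕ}

/-- `a P + b (1 - P)`. -/
def mix {n : ℕ} (P : Mat n) (a b : ℝ) : Mat n := a • P + b • (1 - P)

theorem mix_mul {n : ℕ} {P : Mat n} (hP : P * P = P) (a b a' b' : ℝ) :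
    mix P a b * mix P a' b' = mix P (a * a') (b * b') := by
  have h1 : P * (1 - P) = 0 := by rw [Matrix.mul_sub, Matrix.mul_one, hP, sub_self]
  have h2 : (1 - P) * P = 0 := by rw [Matrix.sub_mul, Matrix.one_mul, hP, sub_self]
  have h3 : (1 - P) * (1 - P) = 1 - P := by
    rw [Matrix.sub_mul, Matrix.one_mul, h1, sub_zero]
  simp [mix, Matrix.add_mul, Matrix.mul_add, hP, h1, h2, h3, smul_smul, mul_comm]

theorem neg_mix {n : ℕ} (P : Mat n) (a b : ℝ) : -mix P a b = mix P (-a) (-b) := by
  simp only [mix, neg_add, neg_smul]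

theorem det_mix (P : Mat (l + k)) (hP : P * P = P) (hPt : Pᵀ = P) (htr : P.trace = (l : ℝ))
    (a b : ℝ) : (mix P a b).det = a ^ l * b ^ k := by
  obtain ⟨V, hV, hVP⟩ := Lin.exists_frame_proj (k := k) rfl hP hPt htr
  rw [← hV.det_conj (mix P a b)]
  have : Vᵀ * mix P a b * V = fromBlocks (a • (1 : Matrix (Fin l) (Fin l) ℝ)) 0 0
      (b • (1 : Matrix (Fin k) (Fin k) ℝ)) := by
    simp only [mix, Matrix.mul_add, Matrix.add_mul, Matrix.mul_smul, Matrix.smul_mul,
      Lin.sandwich_sub, hV.conj_one, hVP]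
    rw [← fromBlocks_one (l := Fin l) (m := Fin k), fromBlocks_smul]
    ext i j
    rcases i with i | i <;> rcases j with j | j <;> simp [Matrix.one_apply]
  rw [this, det_fromBlocks_zero₁₂, det_smul, det_smul]
  simp

theorem hasDerivAt_mix {n : ℕ} (P : Mat n) {f g : ℝ → ℝ} {f' g' y : ℝ} (hf : HasDerivAt f f' y)
    (hg : HasDerivAt g g' y) : HasDerivAt (fun z => mix P (f z) (g z)) (mix P f' g') y :=
  (hf.smul_const P).fun_add (hg.smul_const (1 - P))

theorem mix_solves (P : Mat (l + k)) (hP : P * P = P) (x y : ℝ) :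
    HasDerivAt (fun z => mix P (sin (z - x) * cos (z - x)) (sin (z - x)))
        (mix P (cos (y - x) ^ 2 - sin (y - x) ^ 2) (cos (y - x))) y ∧
      HasDerivAt (fun z => mix P (cos (z - x) ^ 2 - sin (z - x) ^ 2) (cos (z - x)))
        (-(((4 : ℝ) • P + (1 - P)) * mix P (sin (y - x) * cos (y - x)) (sin (y - x)))) y := by
  have hs : HasDerivAt (fun z => sin (z - x)) (cos (y - x)) y := by
    simpa using (((hasDerivAt_id y).sub_const x).sin)
  have hc : HasDerivAt (fun z => cos (z - x)) (-sin (y - x)) y := by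
    simpa using (((hasDerivAt_id y).sub_const x).cos)
  refine ⟨hasDerivAt_mix P ((hs.fun_mul hc).congr_deriv (by ring)) hs, ?_⟩
  have e : (4 : ℝ) • P + (1 - P) = mix P 4 1 := by simp [mix]
  rw [e, mix_mul hP, neg_mix, one_mul]
  exact hasDerivAt_mix P (((hc.fun_pow 2).fun_sub (hs.fun_pow 2)).congr_deriv (by push_cast; ring)) hc

theorem model_A (S : JacobiSystem l k) {P : Mat (l + k)} (hP : P * P = P)
    (hR : ∀ y, S.R y = (4 : ℝ) • P + (1 - P)) (x y : ℝ) :
    S.A x y = mix P (sin (y - x) * cos (y - x)) (sin (y - x)) := by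
  refine ((isSol_A S x).eq (Z := fun z => mix P (sin (z - x) * cos (z - x)) (sin (z - x)))
    (Z' := fun z => mix P (cos (z - x) ^ 2 - sin (z - x) ^ 2) (cos (z - x))) (fun z => ?_)
    (y₀ := x) ?_ ?_ y).1
  · rw [hR z]; exact mix_solves P hP x z
  · simp [(S.init x).1, mix]
  · simp [(S.init x).2, mix]

/-- the mean Jacobian of a model system -/
theorem meanJacobian_of_isModel (S : JacobiSystem l k) (h : IsModelCurvature S) (t : ℝ) :
    meanJacobian S t = |modelJacobian l k t| := by
  obtain ⟨P, hP, hPt, htr, hR⟩ := h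
  have e : ∀ x, |(S.A x (x + t)).det| = |modelJacobian l k t| := fun x => by
    rw [model_A S hP hR, add_sub_cancel_left, det_mix P hP hPt htr, modelJacobian]
  simp only [meanJacobian, e, intervalIntegral.integral_const, sub_zero, smul_eq_mul]
  exact mul_div_cancel_left₀ _ Real.pi_ne_zero

/-- the model projection -/
def modelProj (l k : ℕ) : Mat (l + k) := diagonal fun i => if (i : ℕ) < l then 1 else 0

theorem modelProj_spec (l k : ℕ) : modelProj l k * modelProj l k = modelProj l k ∧
    (modelProj l k)ᵀ = modelProj l k ∧ (modelProj l k).trace = (l : ℝ) ∧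
    (1 - modelProj l k).rank = k := by
  have hcard : (Finset.univ.filter fun i : Fin (l + k) => (i : ℕ) < l).card = l := by
    rw [Fin.card_filter_val_lt]
    omega
  refine ⟨?_, diagonal_transpose _, ?_, ?_⟩
  · rw [modelProj, diagonal_mul_diagonal]
    congr 1
    funext i
    split_ifs <;> simp
  · simp [modelProj, Matrix.trace, Finset.sum_boole, hcard]
  · rw [modelProj, ← diagonal_one, diagonal_sub, rank_diagonal, Fintype.card_subtype]
    have hc := Finset.card_filter_add_card_filter_not (s := (Finset.univ : Finset (Fin (l + k))))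
      (p := fun i => (i : ℕ) < l)
    rw [hcard, Finset.card_univ, Fintype.card_fin] at hc
    have : (Finset.univ.filter fun i : Fin (l + k) => (1 : ℝ) - (if (i : ℕ) < l then 1 else 0) ≠ 0)
        = Finset.univ.filter fun i : Fin (l + k) => ¬(i : ℕ) < l := by
      refine Finset.filter_congr fun i _ => ?_
      split_ifs with hi <;> simp [hi]
    rw [this]
    omega

/-- the definition is not vacuous -/
theorem nonempty_jacobiSystem (l k : ℕ) : ∃ S : JacobiSystem l k, IsModelCurvature S := by
  obtain ⟨hP, hPt, htr, hrk⟩ := modelProj_spec l k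
  set P := modelProj l k
  have hdet : ∀ t, 0 < t → t < π / 2 → (mix P (sin t * cos t) (sin t)).det ≠ 0 := by
    intro t ht ht'
    rw [det_mix P hP hPt htr]
    have h1 := Real.sin_pos_of_pos_of_lt_pi ht (by linarith)
    have h2 := Real.cos_pos_of_mem_Ioo (show t ∈ Ioo (-(π / 2)) (π / 2) from ⟨by linarith, ht'⟩)
    positivity
  refine ⟨{
    R := fun _ => (4 : ℝ) • P + (1 - P)
    Q := 1
    A := fun x y => mix P (sin (y - x) * cos (y - x)) (sin (y - x))
    A' := fun x y => mix P (cos (y - x) ^ 2 - sin (y - x) ^ 2) (cos (y - x))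
    R_cont := continuous_const
    R_symm := fun y => by simp [hPt]
    Q_orth := by simp
    R_twist := fun y => by simp
    init := fun x => by simp [mix]
    deriv_A := fun x y i j => hasDerivAt_pi.1 (hasDerivAt_pi.1 (mix_solves P hP x y).1 i) j
    deriv_A' := fun x y i j => hasDerivAt_pi.1 (hasDerivAt_pi.1 (mix_solves P hP x y).2 i) j
    no_conj := fun x t ht ht' => by rw [add_sub_cancel_left]; exact hdet t ht ht'
    rank_half := fun x => by simp [mix, hrk]
    vanish_pi := fun x => by simp [mix] }, P, hP, hPt, htr, fun _ => rfl⟩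

end Vale.Agent.P231
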