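import Vale.Agent.P231.Facts

/-!
Rigidity: if the Gram matrices of the Jacobi solutions are those of the model then the curvature
operator is the constant model operator.
-/

namespace Vale.Agent.P231

open Matrix Real Filter Topology

variable {l k : ℕ} {S : JacobiSystem l k}

/-- The model solution. -/
noncomputable def modelSol (P : Mat (l + k)) (t : ℝ) : Mat (l + k) :=
  (sin t * cos t) • P + sin t • (1 - P)

/-- The product of two combinations of a projection and its complement. -/
lemma comb_mul {n : ℕ} {P : Mat n} (hP : P * P = P) (a b c d : ℝ) :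
    (a • P + b • (1 - P)) * (c • P + d • (1 - P)) = (a * c) • P + (b * d) • (1 - P) := by
  have h1 : P * (1 - P) = 0 := by rw [Matrix.mul_sub, Matrix.mul_one, hP, sub_self]
  have h2 : (1 - P) * P = 0 := by rw [Matrix.sub_mul, Matrix.one_mul, hP, sub_self]
  have h3 : (1 - P) * (1 - P) = 1 - P := by rw [Matrix.mul_sub, Matrix.mul_one, h2, sub_zero]
  simp only [Matrix.add_mul, Matrix.mul_add, Matrix.smul_mul, Matrix.mul_smul, smul_smul, hP, h1,
    h2, h3, smul_zero, add_zero, zero_add]
  rw [mul_comm c a, mul_comm d b]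

lemma sin_cos_pos {t : ℝ} (ht : t ∈ Set.Ioo (0 : ℝ) (π / 2)) :
    0 < sin t ∧ 0 < cos t :=
  ⟨sin_pos_of_pos_of_lt_pi ht.1 (by linarith [ht.2, Real.pi_pos]),
    cos_pos_of_mem_Ioo ⟨by linarith [ht.1, Real.pi_pos], ht.2⟩⟩

/-- The model Gram matrices force the model solutions. -/
theorem sol_eq_model (F : JacobiFacts S) (K : KernelFacts S) (x : ℝ)
    (h : ∀ t ∈ Set.Ioo (0 : ℝ) (π / 2), (S.A x (x + t))ᵀ * S.A x (x + t)
      = ((sin t * cos t) ^ 2) • kerProj S x + (sin t) ^ 2 • (1 - kerProj S x)) :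
    ∀ t ∈ Set.Ioo (0 : ℝ) (π / 2), S.A x (x + t) = modelSol (kerProj S x) t := by
  set P := kerProj S x with hPdef
  obtain ⟨hP, hPT, -, -⟩ := K.spec x
  rw [← hPdef] at hP hPT
  set A : ℝ → Mat (l + k) := fun t => S.A x (x + t) with hA
  set A' : ℝ → Mat (l + k) := fun t => S.A' x (x + t) with hA'
  have hd : ∀ t i j, HasDerivAt (fun z => A z i j) (A' t i j) t := fun t i j => by
    simpa [hA, hA'] using (S.deriv_A x (x + t) i j).comp_const_add x t
  -- the derivative of the Gram matrix
  have hAA : ∀ t ∈ Set.Ioo (0 : ℝ) (π / 2), (A t)ᵀ * A' t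
      = (sin t * cos t * (cos t ^ 2 - sin t ^ 2)) • P + (sin t * cos t) • (1 - P) := by
    intro t ht
    have hsym : (A t)ᵀ * A' t = (A' t)ᵀ * A t := by
      have := F.wronskian x x (x + t)
      rwa [(S.init x).1, neg_zero, sub_eq_zero] at this
    ext i j
    have d1 : HasDerivAt (fun z => ((A z)ᵀ * A z) i j)
        (((A' t)ᵀ * A t + (A t)ᵀ * A' t) i j) t := by
      simp only [Matrix.mul_apply, Matrix.transpose_apply, Matrix.add_apply, ← Finset.sum_add_distrib]
      exact HasDerivAt.fun_sum fun a _ => (hd t a i).mul (hd t a j)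
    have d2 : HasDerivAt
        (fun z => (((sin z * cos z) ^ 2) • P + (sin z) ^ 2 • (1 - P)) i j)
        (2 * (sin t * cos t) * (cos t ^ 2 - sin t ^ 2) * P i j
          + 2 * sin t * cos t * (1 - P) i j) t := by
      simp only [Matrix.add_apply, Matrix.smul_apply, smul_eq_mul]
      refine HasDerivAt.add (HasDerivAt.mul_const ?_ _) (HasDerivAt.mul_const ?_ _)
      · have := ((hasDerivAt_sin t).mul (hasDerivAt_cos t)).pow 2
        refine this.congr_deriv ?_
        simp only [Pi.mul_apply, Nat.cast_ofNat, Nat.add_one_sub_one, pow_one]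
        ring
      · have := (hasDerivAt_sin t).pow 2
        refine this.congr_deriv ?_
        simp only [Nat.cast_ofNat, Nat.add_one_sub_one, pow_one]
    have e : (fun z => ((A z)ᵀ * A z) i j) =ᶠ[𝓝 t]
        fun z => (((sin z * cos z) ^ 2) • P + (sin z) ^ 2 • (1 - P)) i j := by
      filter_upwards [isOpen_Ioo.mem_nhds ht] with z hz
      rw [hA, h z hz]
    have := (d2.congr_of_eventuallyEq e).unique d1
    rw [Matrix.add_apply, hsym] at this
    rw [hsym, Matrix.add_apply, Matrix.smul_apply, Matrix.smul_apply, smul_eq_mul, smul_eq_mul]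
    linarith
  -- `A' = A W`
  have hW : ∀ t ∈ Set.Ioo (0 : ℝ) (π / 2), A' t = A t *
      (((cos t ^ 2 - sin t ^ 2) / (sin t * cos t)) • P + (cos t / sin t) • (1 - P)) := by
    intro t ht
    obtain ⟨hs, hc⟩ := sin_cos_pos ht
    have hdet : (A t)ᵀ.det ≠ 0 := by
      rw [Matrix.det_transpose]
      exact F.det_ne x t ht.1.ne' (by rw [abs_of_pos ht.1]; linarith [ht.2, Real.pi_pos])
        (by rw [abs_of_pos ht.1]; exact ht.2.ne)
    refine ((Matrix.isUnit_iff_isUnit_det _).2 hdet.isUnit).mul_left_cancel ?_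
    rw [← Matrix.mul_assoc, hAA t ht]
    show _ = (S.A x (x + t))ᵀ * S.A x (x + t) * _
    rw [h t ht, comb_mul hP]
    congr 2 <;> field_simp
  -- the orthogonal factor
  set O : ℝ → Mat (l + k) := fun t => A t * ((sin t * cos t)⁻¹ • P + (sin t)⁻¹ • (1 - P)) with hO
  have hO' : ∀ i j, ∀ t ∈ Set.Ioo (0 : ℝ) (π / 2), HasDerivAt (fun z => O z i j) 0 t := by
    intro i j t ht
    obtain ⟨hs, hc⟩ := sin_cos_pos ht
    have d : ∀ a b, HasDerivAt
        (fun z => ((sin z * cos z)⁻¹ • P + (sin z)⁻¹ • (1 - P)) a b)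
        ((((sin t * cos t)⁻¹ * -((cos t ^ 2 - sin t ^ 2) / (sin t * cos t))) • P
          + ((sin t)⁻¹ * -(cos t / sin t)) • (1 - P)) a b) t := by
      intro a b
      simp only [Matrix.add_apply, Matrix.smul_apply, smul_eq_mul]
      refine HasDerivAt.add (HasDerivAt.mul_const ?_ _) (HasDerivAt.mul_const ?_ _)
      · have := ((hasDerivAt_sin t).mul (hasDerivAt_cos t)).inv (mul_pos hs hc).ne'
        refine this.congr_deriv ?_
        simp only [Pi.mul_apply]
        field_simp
        ring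
      · refine ((hasDerivAt_sin t).inv hs.ne').congr_deriv ?_
        field_simp
    have hsum : HasDerivAt (fun z => O z i j)
        ((A' t * ((sin t * cos t)⁻¹ • P + (sin t)⁻¹ • (1 - P))
          + A t * (((sin t * cos t)⁻¹ * -((cos t ^ 2 - sin t ^ 2) / (sin t * cos t))) • P
            + ((sin t)⁻¹ * -(cos t / sin t)) • (1 - P))) i j) t := by
      simp only [hO, Matrix.mul_apply, Matrix.add_apply, ← Finset.sum_add_distrib]
      exact HasDerivAt.fun_sum fun a _ => (hd t i a).mul (d a j)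
    refine hsum.congr_deriv ?_
    rw [hW t ht, Matrix.mul_assoc, comb_mul hP, ← Matrix.mul_add]
    have : ((cos t ^ 2 - sin t ^ 2) / (sin t * cos t) * (sin t * cos t)⁻¹) • P
        + (cos t / sin t * (sin t)⁻¹) • (1 - P)
        + (((sin t * cos t)⁻¹ * -((cos t ^ 2 - sin t ^ 2) / (sin t * cos t))) • P
          + ((sin t)⁻¹ * -(cos t / sin t)) • (1 - P)) = 0 := by
      rw [add_add_add_comm, ← add_smul, ← add_smul]
      rw [show (cos t ^ 2 - sin t ^ 2) / (sin t * cos t) * (sin t * cos t)⁻¹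
          + (sin t * cos t)⁻¹ * -((cos t ^ 2 - sin t ^ 2) / (sin t * cos t)) = 0 by ring,
        show cos t / sin t * (sin t)⁻¹ + (sin t)⁻¹ * -(cos t / sin t) = 0 by ring,
        zero_smul, zero_smul, add_zero]
    rw [this, Matrix.mul_zero, Matrix.zero_apply]
  -- the limit at zero
  have hlim : ∀ i j, Tendsto (fun t => O t i j) (𝓝[>] 0) (𝓝 ((1 : Mat (l + k)) i j)) := by
    intro i j
    have h1 : Tendsto (fun t => sin t / t) (𝓝[>] 0) (𝓝 1) := by
      have := hasDerivAt_iff_tendsto_slope_zero.1 (hasDerivAt_sin 0)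
      simp only [zero_add, sin_zero, sub_zero, cos_zero, smul_eq_mul] at this
      refine (this.mono_left (nhdsWithin_mono _ fun t ht => ne_of_gt ht)).congr fun t => ?_
      rw [inv_mul_eq_div]
    have h2 : Tendsto (fun t => cos t) (𝓝[>] (0 : ℝ)) (𝓝 1) := by
      simpa using (continuous_cos.tendsto 0).mono_left nhdsWithin_le_nhds
    have ha : ∀ a b, Tendsto (fun t => A t a b / t) (𝓝[>] 0) (𝓝 ((1 : Mat (l + k)) a b)) := by
      intro a b
      rw [Metric.tendsto_nhdsWithin_nhds]
      intro ε hε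
      obtain ⟨δ, hδ, hn⟩ := F.near_zero (ε / 2) (half_pos hε)
      refine ⟨δ, hδ, fun {t} ht0 ht => ?_⟩
      rw [Real.dist_eq, sub_zero] at ht
      rw [Real.dist_eq]
      exact lt_of_le_of_lt (hn x t (ne_of_gt ht0) ht a b) (by linarith)
    have hb : Tendsto (fun t => ∑ a, A t i a / t *
        (((sin t / t) * cos t)⁻¹ * P a j + (sin t / t)⁻¹ * (1 - P) a j)) (𝓝[>] 0)
        (𝓝 (∑ a, (1 : Mat (l + k)) i a * (((1 : ℝ) * 1)⁻¹ * P a j + (1 : ℝ)⁻¹ * (1 - P) a j))) :=
      tendsto_finsetSum _ fun a _ => (ha i a).mul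
        (((h1.mul h2).inv₀ (by norm_num)).mul_const _ |>.add ((h1.inv₀ one_ne_zero).mul_const _))
    have e : ∑ a, (1 : Mat (l + k)) i a * (((1 : ℝ) * 1)⁻¹ * P a j + (1 : ℝ)⁻¹ * (1 - P) a j)
        = (1 : Mat (l + k)) i j := by
      have h3 : ∀ a, ((1 : ℝ) * 1)⁻¹ * P a j + (1 : ℝ)⁻¹ * (1 - P) a j = (1 : Mat (l + k)) a j :=
        fun a => by simp [Matrix.sub_apply]
      simp only [h3, ← Matrix.mul_apply, Matrix.one_mul]
    rw [e] at hb
    refine hb.congr' ?_
    filter_upwards [self_mem_nhdsWithin] with t ht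
    have ht0 : t ≠ 0 := ne_of_gt ht
    simp only [hO, Matrix.mul_apply, Matrix.add_apply, Matrix.smul_apply, smul_eq_mul]
    refine Finset.sum_congr rfl fun a _ => ?_
    field_simp
  intro t ht
  have hO1 : O t = 1 := by
    ext i j
    have hconst : ∀ s ∈ Set.Ioo (0 : ℝ) (π / 2), O s i j = O t i j := fun s hs =>
      (convex_Ioo (0 : ℝ) (π / 2)).is_const_of_fderivWithin_eq_zero (𝕜 := ℝ)
        (f := fun z => O z i j)
        (fun z hz => (hO' i j z hz).differentiableAt.differentiableWithinAt)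
        (fun z hz => by
          rw [fderivWithin_of_isOpen isOpen_Ioo hz, (hO' i j z hz).hasFDerivAt.fderiv]
          ext
          simp) hs ht
    refine tendsto_nhds_unique (Tendsto.congr' ?_ tendsto_const_nhds) (hlim i j)
    filter_upwards [Ioo_mem_nhdsGT (show (0 : ℝ) < π / 2 by positivity)] with s hs
    exact (hconst s hs).symm
  obtain ⟨hs, hc⟩ := sin_cos_pos ht
  calc A t = O t * modelSol P t := by
        rw [hO, modelSol, Matrix.mul_assoc, comb_mul hP, inv_mul_cancel₀ (mul_pos hs hc).ne',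
          inv_mul_cancel₀ hs.ne', one_smul, one_smul, add_sub_cancel, Matrix.mul_one]
    _ = modelSol P t := by rw [hO1, Matrix.one_mul]

/-- The curvature on `(x, x + π / 2)`. -/
lemma curvature_eq {x : ℝ} {P : Mat (l + k)} (hP : P * P = P)
    (h : ∀ t ∈ Set.Ioo (0 : ℝ) (π / 2), S.A x (x + t) = modelSol P t) :
    ∀ t ∈ Set.Ioo (0 : ℝ) (π / 2), S.R (x + t) = (4 : ℝ) • P + (1 - P) := by
  have h' : ∀ t ∈ Set.Ioo (0 : ℝ) (π / 2),
      S.A' x (x + t) = (cos t ^ 2 - sin t ^ 2) • P + cos t • (1 - P) := by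
    intro t ht
    ext i j
    have d1 : HasDerivAt (fun z => S.A x (x + z) i j) (S.A' x (x + t) i j) t := by
      simpa using (S.deriv_A x (x + t) i j).comp_const_add x t
    have d2 : HasDerivAt (fun z => modelSol P z i j)
        (((cos t ^ 2 - sin t ^ 2) • P + cos t • (1 - P)) i j) t := by
      simp only [modelSol, Matrix.add_apply, Matrix.smul_apply, smul_eq_mul]
      refine HasDerivAt.add (HasDerivAt.mul_const ?_ _) ((hasDerivAt_sin t).mul_const _)
      refine ((hasDerivAt_sin t).mul (hasDerivAt_cos t)).congr_deriv ?_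
      ring
    refine d1.unique (d2.congr_of_eventuallyEq ?_)
    filter_upwards [isOpen_Ioo.mem_nhds ht] with z hz
    rw [h z hz]
  intro t ht
  obtain ⟨hs, hc⟩ := sin_cos_pos ht
  have h2 : S.R (x + t) * modelSol P t = (4 * (sin t * cos t)) • P + sin t • (1 - P) := by
    ext i j
    have d1 : HasDerivAt (fun z => S.A' x (x + z) i j)
        ((-(S.R (x + t) * S.A x (x + t))) i j) t := by
      simpa using (S.deriv_A' x (x + t) i j).comp_const_add x t
    have d2 : HasDerivAt (fun z => ((cos z ^ 2 - sin z ^ 2) • P + cos z • (1 - P)) i j)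
        ((-((4 * (sin t * cos t)) • P + sin t • (1 - P))) i j) t := by
      simp only [Matrix.add_apply, Matrix.smul_apply, smul_eq_mul, Matrix.neg_apply]
      refine (HasDerivAt.add
        ((((hasDerivAt_cos t).pow 2).sub ((hasDerivAt_sin t).pow 2)).mul_const (P i j))
        ((hasDerivAt_cos t).mul_const ((1 - P) i j))).congr_deriv ?_
      simp only [Nat.cast_ofNat, Nat.add_one_sub_one, pow_one]
      ring
    have := d1.unique (d2.congr_of_eventuallyEq (by
      filter_upwards [isOpen_Ioo.mem_nhds ht] with z hz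
      rw [h' z hz]))
    rw [h t ht, Matrix.neg_apply, Matrix.neg_apply, neg_inj] at this
    exact this
  have h3 := congrArg (fun X : Mat (l + k) =>
    X * ((sin t * cos t)⁻¹ • P + (sin t)⁻¹ • (1 - P))) h2
  simp only [modelSol, Matrix.mul_assoc, comb_mul hP] at h3
  rw [mul_inv_cancel₀ (mul_pos hs hc).ne', mul_inv_cancel₀ hs.ne', one_smul, one_smul,
    add_sub_cancel, Matrix.mul_one, mul_assoc (4 : ℝ), mul_inv_cancel₀ (mul_pos hs hc).ne',
    mul_one] at h3
  exact h3

/-- The model Gram matrices for every base point force the model curvature. -/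
theorem isModelCurvature_of_gram (F : JacobiFacts S) (K : KernelFacts S)
    (h : ∀ x, ∀ t ∈ Set.Ioo (0 : ℝ) (π / 2), (S.A x (x + t))ᵀ * S.A x (x + t)
      = ((sin t * cos t) ^ 2) • kerProj S x + (sin t) ^ 2 • (1 - kerProj S x)) :
    IsModelCurvature S := by
  have hR : ∀ x, ∀ y ∈ Set.Ioo x (x + π / 2),
      S.R y = (4 : ℝ) • kerProj S x + (1 - kerProj S x) := fun x y hy => by
    have := curvature_eq (K.spec x).1 (sol_eq_model F K x (h x)) (y - x)
      ⟨by linarith [hy.1], by linarith [hy.2]⟩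
    rwa [add_sub_cancel] at this
  have hloc : IsLocallyConstant (kerProj S) := by
    rw [IsLocallyConstant.iff_eventually_eq]
    intro x
    filter_upwards [Ioo_mem_nhds (show x - π / 8 < x by linarith [Real.pi_pos])
      (show x < x + π / 8 by linarith [Real.pi_pos])] with z hz
    have h1 := hR z (x + π / 4) ⟨by linarith [hz.2, Real.pi_pos], by linarith [hz.1, Real.pi_pos]⟩
    have h2 := hR x (x + π / 4) ⟨by linarith [Real.pi_pos], by linarith [Real.pi_pos]⟩
    rw [h1] at h2
    have h3 : (3 : ℝ) • kerProj S z = (3 : ℝ) • kerProj S x := by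
      have := congrArg (fun X => X - (1 : Mat (l + k))) h2
      convert this using 1 <;> module
    exact smul_right_injective _ (by norm_num : (3 : ℝ) ≠ 0) h3
  obtain ⟨h1, h2, -, h4⟩ := K.spec 0
  refine ⟨kerProj S 0, h1, h2, h4, fun y => ?_⟩
  rw [hR (y - π / 4) y ⟨by linarith [Real.pi_pos], by linarith [Real.pi_pos]⟩,
    hloc.apply_eq_of_preconnectedSpace (y - π / 4) 0]

end Vale.Agent.P231
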