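import Vale.Agent.P231.Quant

/-!
The four linear-algebra statements used by the averaging step.
-/

namespace Vale.Agent.P231

open Matrix Real

/-- Split lower bound for the trace of an inverse Gram matrix, with its equality case. -/
def InvGramGoal : Prop :=
  ∀ {n : ℕ} (l k : ℕ) (M P : Mat n) (α β : ℝ), n = l + k → M.det ≠ 0 → P * P = P → Pᵀ = P →
    P.trace = (l : ℝ) → 0 < α → 0 < β →
    α * (l - 2 * logGram P M - l * log α)
        + β * (k + 2 * logGram P M - 2 * logAbsDet M - k * log β) ≤ invGram M ∧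
      (α * (l - 2 * logGram P M - l * log α)
        + β * (k + 2 * logGram P M - 2 * logAbsDet M - k * log β) = invGram M →
        Mᵀ * M = α⁻¹ • P + β⁻¹ • (1 - P))

/-- The straddle inequality at lag half period. -/
def StraddleGoal : Prop :=
  ∀ {n : ℕ} (l k : ℕ) (Aa Ab D Z Pa Pb : Mat n) (γ : ℝ), n = l + k → Aa.det ≠ 0 → Ab.det ≠ 0 →
    D.PosSemidef → Aaᵀ * D * Ab = Z → Pa * Pa = Pa → Paᵀ = Pa → Pa.trace = (l : ℝ) →
    Pb * Pb = Pb → Pbᵀ = Pb → Pb.trace = (l : ℝ) → Z * Pb = 0 → Pa * Z = 0 → Z.rank = k → 0 < γ →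
    logCof Pb Z + logGram Pa Aa + logGram Pb Ab - logAbsDet Aa - logAbsDet Ab
      ≤ D.trace / γ - k + k * log γ

/-- The two one-sided inequalities at half period, added. -/
def SideGoal : Prop :=
  ∀ {n : ℕ} (l k : ℕ) (A0 A1 P0 Px U1 U2 : Mat n) (g1 g2 : ℝ), n = l + k → A0.rank = k →
    P0 * P0 = P0 → P0ᵀ = P0 → P0.trace = (l : ℝ) → A0 * P0 = 0 →
    Px * Px = Px → Pxᵀ = Px → Px.trace = (l : ℝ) → Px * A0 = 0 →
    (A1 * P0)ᵀ * (A1 * P0) = P0 → Px * (A1 * P0) = A1 * P0 →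
    (A0ᵀ * A1)ᵀ = A0ᵀ * A1 → U1ᵀ = U1 → U2ᵀ = U2 →
    (A0ᵀ * U1 - A1ᵀ).det ≠ 0 → (A0ᵀ * U2 - A1ᵀ).det ≠ 0 →
    (A0ᵀ * U1 * A0 - A0ᵀ * A1).PosSemidef → (A0ᵀ * A1 - A0ᵀ * U2 * A0).PosSemidef →
    0 < g1 → 0 < g2 →
    g1 * (logAbsDet (A0ᵀ * U1 - A1ᵀ) - logCof P0 A0 + k - k * log g1)
        + g2 * (logAbsDet (A0ᵀ * U2 - A1ᵀ) - logCof P0 A0 + k - k * log g2)
      ≤ ((1 - Px) * (U1 - U2)).trace

/-- The cofactor does not depend on the side. -/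
def CofTransposeGoal : Prop :=
  ∀ {n : ℕ} (l k : ℕ) (Z Pa Pb : Mat n), n = l + k → Pa * Pa = Pa → Paᵀ = Pa →
    Pa.trace = (l : ℝ) → Pb * Pb = Pb → Pbᵀ = Pb → Pb.trace = (l : ℝ) → Z * Pb = 0 → Pa * Z = 0 →
    Z.rank = k → logCof Pb Z = logCof Pa Zᵀ

end Vale.Agent.P231
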