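import Vale.Agent.P231.Defs

/-!
Auxiliary quantities: the kernel projection at half period, Gram determinants, Riccati operators
and their means over a period.
-/

namespace Vale.Agent.P231

open Matrix

/-- `P` is an orthogonal projection of rank `l` whose range is killed by `M`. -/
def IsKerProj {n : ℕ} (l : ℕ) (M P : Mat n) : Prop :=
  P * P = P ∧ Pᵀ = P ∧ M * P = 0 ∧ P.trace = (l : ℝ)

/-- The orthogonal projection onto `ker A x (x + π / 2)`. -/
noncomputable def kerProj {l k : ℕ} (S : JacobiSystem l k) (x : ℝ) : Mat (l + k) :=
  Classical.epsilon (IsKerProj l (S.A x (x + Real.pi / 2)))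

/-- `log |det M|`. -/
noncomputable def logAbsDet {n : ℕ} (M : Mat n) : ℝ := Real.log |M.det|

/-- Half the logarithm of the Gram determinant of `M` restricted to the range of `P`. -/
noncomputable def logGram {n : ℕ} (P M : Mat n) : ℝ :=
  Real.log (P * (Mᵀ * M) * P + (1 - P)).det / 2

/-- Half the logarithm of the product of the nonzero squared singular values of `M`,
where `P` projects on its kernel. -/
noncomputable def logCof {n : ℕ} (P M : Mat n) : ℝ :=
  Real.log (Mᵀ * M + P).det / 2

/-- The trace of the inverse Gram matrix. -/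
noncomputable def invGram {n : ℕ} (M : Mat n) : ℝ := ((Mᵀ * M)⁻¹).trace

/-- The Riccati operator of the solution based at `b`, evaluated at `y`. -/
noncomputable def ricc {l k : ℕ} (S : JacobiSystem l k) (b y : ℝ) : Mat (l + k) :=
  S.A' b y * (S.A b y)⁻¹

/-- Mean over one period. -/
noncomputable def mean (f : ℝ → ℝ) : ℝ := (∫ x in (0 : ℝ)..Real.pi, f x) / Real.pi

/-- Mean logarithmic volume density. -/
noncomputable def meanLog {l k : ℕ} (S : JacobiSystem l k) (t : ℝ) : ℝ :=
  mean fun x => logAbsDet (S.A x (x + t))

/-- Mean trace of the Riccati operator. -/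
noncomputable def meanRicc {l k : ℕ} (S : JacobiSystem l k) (t : ℝ) : ℝ :=
  mean fun x => (ricc S x (x + t)).trace

/-- Mean squared Frobenius norm of the inverse solution. -/
noncomputable def meanInv {l k : ℕ} (S : JacobiSystem l k) (t : ℝ) : ℝ :=
  mean fun x => invGram (S.A x (x + t))

/-- Mean logarithmic Gram determinant of the special Jacobi fields. -/
noncomputable def meanGram {l k : ℕ} (S : JacobiSystem l k) (t : ℝ) : ℝ :=
  mean fun x => logGram (kerProj S x) (S.A x (x + t))

/-- Mean logarithmic cofactor at half period. -/
noncomputable def meanCof {l k : ℕ} (S : JacobiSystem l k) : ℝ :=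
  mean fun x => logCof (kerProj S x) (S.A x (x + Real.pi / 2))

end Vale.Agent.P231
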